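import Vale.Agent.Lib.PCP.NPDefs
import Mathlib.Algebra.Order.Archimedean.Real.Basic
import Mathlib.Data.Set.Card

/-!
2-to-1 games with integer weights, 3-uniform hypergraphs, and their codes.
-/

namespace Vale.Agent.N339B

open Vale.Agent.Lib.NP

/-- A 2-to-1 game with alphabets `Fin (2 * q)` and `Fin q`: a list of constraints `(u, v, π, w)`
with left vertex `u`, right vertex `v`, a map `π` all of whose fibres have two elements, and a weight
`w`; the total weight is positive. -/
structure Game (q : ℕ) where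
  cons : List (ℕ × ℕ × (Fin (2 * q) → Fin q) × ℕ)
  two : ∀ c ∈ cons, ∀ b, (c.2.2.1 ⁻¹' {b}).ncard = 2
  pos : 0 < (cons.map fun c => c.2.2.2).sum

/-- The value: the largest probability of `π (A u) = B v`, over all labelings `A`, `B`, for a
constraint which is chosen with probability proportional to its weight. -/
noncomputable def Game.value {q : ℕ} (G : Game q) : ℝ :=
  ⨆ L : (ℕ → Fin (2 * q)) × (ℕ → Fin q),
    (((G.cons.filter fun c => c.2.2.1 (L.1 c.1) = L.2 c.2.1).map fun c => c.2.2.2).sum : ℕ) /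
      ((G.cons.map fun c => c.2.2.2).sum : ℕ)

/-- The code of a game: for each constraint `u`, `v`, the values of `π` and `w` in binary. -/
def Game.code {q : ℕ} (G : Game q) : List Bool :=
  listW (G.cons.map fun c =>
    listW [c.1.bits, c.2.1.bits, listW (List.ofFn fun a => (c.2.2.1 a).val.bits), c.2.2.2.bits])

/-- A 3-uniform hypergraph on the vertices `0, …, n - 1`: a list of triples of distinct vertices. -/
structure Hyp where
  n : ℕ
  E : List (ℕ × ℕ × ℕ)
  ok : ∀ e ∈ E, e.1 < n ∧ e.2.1 < n ∧ e.2.2 < n ∧ e.1 ≠ e.2.1 ∧ e.1 ≠ e.2.2 ∧ e.2.1 ≠ e.2.2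

/-- The code of a hypergraph: `n` in unary, then the edges in binary. -/
def Hyp.code (H : Hyp) : List Bool :=
  pairW (List.replicate H.n true) (listW (H.E.map fun e => listW [e.1.bits, e.2.1.bits, e.2.2.bits]))

/-- There is a colouring with two colours without a monochromatic edge. -/
def Hyp.TwoCol (H : Hyp) : Prop :=
  ∃ c : ℕ → Bool, ∀ e ∈ H.E, ¬ (c e.1 = c e.2.1 ∧ c e.2.1 = c e.2.2)

/-- Every set of more than `ε n` vertices contains an edge. -/
def Hyp.Dense (H : Hyp) (ε : ℝ) : Prop :=
  ∀ S ⊆ Finset.range H.n, ε * H.n < S.card → ∃ e ∈ H.E, e.1 ∈ S ∧ e.2.1 ∈ S ∧ e.2.2 ∈ S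

end Vale.Agent.N339B
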