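import Vale.Agent.N339B.Tab

/-!
The long code lemma for triples: two words of a dense set and one word of another dense set which
are nowhere equal.
-/

namespace Vale.Agent.N339B

open Finset hiding dens
open Vale.Agent.P342.LCode hiding up sens_up dens_up exists_slots Sep long_code_fin
open Vale.Agent.N342
open scoped BigOperators

/-- Robust cores: outside a short list `T`, few coordinates can be changed arbitrarily. -/
theorem robust_core {κ : Type} [Fintype κ] [DecidableEq κ] (Γ : Type) [Fintype Γ]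
    (e : Γ ≃ (κ → ZMod 2)) {ε K : ℝ} (hε : 0 < ε) (hK : 0 < K) :
    ∃ (m t : ℕ), ∀ (B : Type) [Fintype B] [DecidableEq B] (G : (B → Γ) → Prop),
      ε ≤ dens G → ∑ b, sens G b ≤ K → ∃ (J T : Finset B) (z₀ : B → Γ), J.card ≤ m ∧ J ⊆ T ∧
        T.card ≤ t ∧ ∀ N : Finset B, N.card ≤ 6 * m → Disjoint N T →
          3 / 4 ≤ 𝔼 z, ind (∀ a, (∀ b, b ∉ N → a b = J.piecewise z₀ z b) → G a) := by
  have : Nonempty Γ := ⟨e.symm 0⟩
  obtain ⟨m, K', h⟩ := exists_core Γ e hε hK
  set τ : ℝ := 1 / (8 * ((Fintype.card Γ : ℝ) + 1) ^ (6 * m)) with hτ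
  have hτ0 : 0 < τ := by positivity
  obtain ⟨t, ht⟩ := exists_nat_ge (K' / τ)
  refine ⟨m, m + t, fun B _ _ G h1 h2 => ?_⟩
  obtain ⟨J, z₀, hJ, g1, g2⟩ := h B G h1 h2
  set G' : (B → Γ) → Prop := fun z => G (J.piecewise z₀ z) with hG'
  classical
  set T₀ : Finset B := univ.filter fun b => τ < sens G' b with hT₀
  have hT : T₀.card ≤ t := by
    have a1 : (T₀.card : ℝ) * τ ≤ K' := by
      calc (T₀.card : ℝ) * τ = ∑ _b ∈ T₀, τ := by simp
        _ ≤ ∑ b ∈ T₀, sens G' b := sum_le_sum fun b hb => (mem_filter.1 hb).2.le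
        _ ≤ ∑ b, sens G' b :=
          sum_le_sum_of_subset_of_nonneg (subset_univ _) fun b _ _ => sens_nonneg G' b
        _ ≤ K' := g2
    rw [div_le_iff₀ hτ0] at ht
    exact_mod_cast le_of_mul_le_mul_right (a1.trans ht) hτ0
  refine ⟨J, J ∪ T₀, z₀, hJ, subset_union_left, (card_union_le _ _).trans (by omega),
    fun N hN hd => ?_⟩
  have h3 := bad_le G' hτ0.le N fun b hb => by
    by_contra h4
    exact disjoint_left.1 hd hb (mem_union_right _ (mem_filter.2 ⟨mem_univ _, not_le.1 h4⟩))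
  have h4 : τ * ((Fintype.card Γ : ℝ) + 1) ^ N.card ≤ 1 / 8 := by
    calc _ ≤ τ * ((Fintype.card Γ : ℝ) + 1) ^ (6 * m) := mul_le_mul_of_nonneg_left
          (pow_le_pow_right₀ (by linarith [Nat.cast_nonneg (α := ℝ) (Fintype.card Γ)]) hN) hτ0.le
      _ = 1 / 8 := by rw [hτ]; field_simp
  have h5 : ∀ z, ind (G' z) - ind (∃ a, (∀ b, b ∉ N → a b = z b) ∧ ¬ (G' a ↔ G' z)) ≤
      ind (∀ a, (∀ b, b ∉ N → a b = J.piecewise z₀ z b) → G a) := by
    intro z
    by_cases a1 : ∃ a, (∀ b, b ∉ N → a b = z b) ∧ ¬ (G' a ↔ G' z)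
    · rw [ind_pos a1]
      linarith [ind_le_one (G' z),
        ind_nonneg (∀ a, (∀ b, b ∉ N → a b = J.piecewise z₀ z b) → G a)]
    · rw [ind_neg a1, sub_zero]
      refine ind_mono fun a2 a ha => ?_
      push Not at a1
      have a3 := (a1 (N.piecewise a z) fun b hb => by simp [hb]).2 a2
      have a4 : J.piecewise z₀ (N.piecewise a z) = a := by
        funext b
        by_cases hb : b ∈ N
        · have : b ∉ J := fun hJ' => disjoint_left.1 hd hb (mem_union_left _ hJ')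
          simp [hb, this]
        · rw [ha b hb]
          by_cases hb' : b ∈ J <;> simp [hb, hb']
      simpa only [hG', a4] using a3
  have h6 := expect_le_expect fun z (_ : z ∈ (univ : Finset (B → Γ))) => h5 z
  rw [expect_sub_distrib] at h6
  change dens G' - _ ≤ _ at h6
  linarith

/-- States. -/
abbrev St : Type := Fin 2 × Fin 8

theorem glue {m : ℕ} {B B' : Type} [Fintype B] [DecidableEq B] [Fintype B'] [DecidableEq B']
    {π π' : B → B'} (hπ : ∀ y, (univ.filter fun b => π b = y).card ≤ 2)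
    (hπ' : ∀ y, (univ.filter fun b => π' b = y).card ≤ 2) {I I' : Finset (B → Fin 2)}
    {R R' : B → Bool} {J₁ J₂ J' T T' : Finset B} {z₁ z₂ z' : B → St} (hJ₁ : J₁.card ≤ m)
    (hJ₂ : J₂.card ≤ m) (hJ' : J'.card ≤ m) (hT₁ : J₁ ⊆ T) (hT₂ : J₂ ⊆ T) (hT' : J' ⊆ T')
    (h₁ : ∀ M : Finset B, M.card ≤ 6 * m → Disjoint M T →
      3 / 4 ≤ 𝔼 z, ind (∀ a, (∀ b, b ∉ M → a b = J₁.piecewise z₁ z b) → up sec I R a))
    (h₂ : ∀ M : Finset B, M.card ≤ 6 * m → Disjoint M T →
      3 / 4 ≤ 𝔼 z, ind (∀ a, (∀ b, b ∉ M → a b = J₂.piecewise z₂ z b) →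
        up sec I (fun b => !R b) a))
    (h' : ∀ M : Finset B, M.card ≤ 6 * m → Disjoint M T' →
      3 / 4 ≤ 𝔼 z, ind (∀ a, (∀ b, b ∉ M → a b = J'.piecewise z' z b) → up sec I' R' a))
    (hi : Set.InjOn π T)
    (hI : ∀ y ∈ I, ∀ z ∈ I, ∀ x ∈ I', ∃ b b', π b = π' b' ∧ y b = x b' ∧ z b = x b') :
    ∃ b ∈ T, ∃ b' ∈ T', π b = π' b' := by
  by_contra hc
  push Not at hc
  obtain ⟨ι, hι, e⟩ := exists_slots hπ
  obtain ⟨ι', hι', e'⟩ := exists_slots hπ'
  choose φ ψ hsep using exists_sep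
  have hN : ∀ (p p' : B → B') (K : Finset B), (∀ y, (univ.filter fun b => p b = y).card ≤ 2) →
      (univ.filter fun b => p b ∈ K.image p').card ≤ 2 * K.card := by
    intro p p' K hp
    refine (card_le_mul_card_image_of_maps_to (f := p) (t := K.image p')
      (fun b hb => (mem_filter.1 hb).2) 2 fun y _ => le_trans (card_le_card fun b hb => ?_)
      (hp y)).trans (Nat.mul_le_mul_left 2 card_image_le)
    exact mem_filter.2 ⟨mem_univ _, (mem_filter.1 hb).2⟩
  set J := J₁ ∪ J₂ with hJd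
  have hJ : J.card ≤ m + m := (card_union_le _ _).trans (add_le_add hJ₁ hJ₂)
  have hJT : J ⊆ T := union_subset hT₁ hT₂
  set M := (univ.filter fun b => π b ∈ J'.image π') ∪
    ((univ.filter fun b => π b ∈ J.image π) \ T) with hMd
  set M' := univ.filter fun b => π' b ∈ J.image π with hMd'
  have hM : M.card ≤ 6 * m := by
    have a1 := hN π π' J' hπ
    have a2 := (card_le_card (sdiff_subset (t := T))).trans (hN π π J hπ)
    have a3 := card_union_le (univ.filter fun b => π b ∈ J'.image π')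
      ((univ.filter fun b => π b ∈ J.image π) \ T)
    rw [hMd]
    omega
  have hMT : Disjoint M T := disjoint_left.2 fun b hb hb' => by
    rcases mem_union.1 hb with a | a
    · obtain ⟨c, c1, c2⟩ := mem_image.1 (mem_filter.1 a).2
      exact hc b hb' c (hT' c1) c2.symm
    · exact (mem_sdiff.1 a).2 hb'
  have g₁ := h₁ M hM hMT
  have g₂ := h₂ M hM hMT
  have g' := h' M' ((hN π' π J hπ').trans (by omega)) (disjoint_left.2 fun b hb hb' => by
    obtain ⟨c, c1, c2⟩ := mem_image.1 (mem_filter.1 hb).2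
    exact hc c (hJT c1) b hb' c2)
  let ρ : B' → Fin 2 → Bool := fun u i => Function.extend ι R (fun _ => false) (u, i)
  have hρ : ∀ b, ρ (ι b).1 (ι b).2 = R b := fun b => hι.extend_apply _ _ b
  let L : (B' → (Fin 2 → St) ≃ (Fin 2 → St)) → (B' × Fin 2 → St) ≃ (B' × Fin 2 → St) := fun χ =>
    ((Equiv.curry _ _ _).trans (Equiv.piCongrRight χ)).trans (Equiv.curry _ _ _).symm
  have hL : ∀ χ s p, L χ s p = χ p.1 (fun i => s (p.1, i)) p.2 := fun _ _ _ => rfl
  let Φ := L fun u => φ (ρ u)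
  let Ψ := L fun u => ψ (ρ u)
  rw [← expect_comp_inj hι, ← Fintype.expect_equiv Φ _ _ fun _ => rfl] at g₁
  rw [← expect_comp_inj hι, ← Fintype.expect_equiv Ψ _ _ fun _ => rfl] at g₂
  rw [← expect_comp_inj hι'] at g'
  obtain ⟨r, a₁, a₂, a'⟩ : ∃ r : B' × Fin 2 → St,
      (∀ a, (∀ b, b ∉ M → a b = J₁.piecewise z₁ (fun b => Φ r (ι b)) b) → up sec I R a) ∧
      (∀ a, (∀ b, b ∉ M → a b = J₂.piecewise z₂ (fun b => Ψ r (ι b)) b) →
        up sec I (fun b => !R b) a) ∧
      (∀ a, (∀ b, b ∉ M' → a b = J'.piecewise z' (fun b => r (ι' b)) b) → up sec I' R' a) := by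
    by_contra hs
    have h1 := add_le_add g₁ (add_le_add g₂ g')
    rw [← expect_add_distrib, ← expect_add_distrib] at h1
    refine absurd (h1.trans (expect_le (a := 2) univ_nonempty fun s _ => ?_)) (by norm_num)
    have h2 := not_exists.1 hs s
    rw [not_and_or, not_and_or] at h2
    rcases h2 with h2 | h2 | h2 <;> rw [ind_neg h2]
    · exact (zero_add _).trans_le ((add_le_add (ind_le_one _) (ind_le_one _)).trans (by norm_num))
    · exact (add_le_add (ind_le_one _) ((zero_add _).trans_le (ind_le_one _))).trans (by norm_num)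
    · exact (add_le_add (ind_le_one _) ((add_zero _).trans_le (ind_le_one _))).trans (by norm_num)
  set w₁ := J₁.piecewise z₁ fun b => Φ r (ι b) with hw₁
  set w₂ := J₂.piecewise z₂ fun b => Ψ r (ι b) with hw₂
  set w' := J'.piecewise z' fun b => r (ι' b) with hw'
  have hv : ∀ u, ∃ c : Fin 2, ∀ b ∈ T, π b = u → c = if R b then (w₂ b).1 else (w₁ b).1 := by
    intro u
    by_cases h : ∃ b ∈ T, π b = u
    · obtain ⟨b, b1, rfl⟩ := h
      exact ⟨_, fun b' b2 b3 => by rw [hi b2 b1 b3]⟩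
    · exact ⟨0, fun b b1 b2 => absurd ⟨b, b1, b2⟩ h⟩
  choose v hv using hv
  obtain ⟨y, y1, y2⟩ := a₁ (M.piecewise (fun _ => (0, 1)) w₁) fun b hb =>
    piecewise_eq_of_notMem _ _ _ hb
  obtain ⟨z, z1, z2⟩ := a₂ (M.piecewise (fun _ => (1, 1)) w₂) fun b hb =>
    piecewise_eq_of_notMem _ _ _ hb
  obtain ⟨x, x1, x2⟩ := a' (M'.piecewise (fun b => (v (π' b) + 1, 1)) w') fun b hb =>
    piecewise_eq_of_notMem _ _ _ hb
  obtain ⟨b, b', c1, c2, c3⟩ := hI y y1 z z1 x x1
  have hs : ∀ (c d : Fin 2) (p : Prop), d = ((c, 1) : St).1 ∨ (p ∧ d = sec (c, 1)) → d = c :=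
    fun c d p h => h.elim id fun h => h.2
  replace y2 := y2 b
  replace z2 := z2 b
  replace x2 := x2 b'
  by_cases hb : b ∈ M
  · rw [piecewise_eq_of_mem _ _ _ hb] at y2 z2
    exact absurd ((hs _ _ _ y2).symm.trans (c2.trans (c3.symm.trans (hs _ _ _ z2)))) (by decide)
  rw [piecewise_eq_of_notMem _ _ _ hb] at y2 z2
  by_cases hb' : b' ∈ M'
  · rw [piecewise_eq_of_mem _ _ _ hb'] at x2
    have k1 : b ∈ T := by
      by_contra k
      exact hb (mem_union_right _ (mem_sdiff.2 ⟨mem_filter.2 ⟨mem_univ _,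
        c1 ▸ (mem_filter.1 hb').2⟩, k⟩))
    have k2 := hs _ _ _ x2
    rw [hv _ b k1 c1] at k2
    have k3 : ∀ c : Fin 2, c ≠ c + 1 := by decide
    cases hR : R b
    · simp only [hR, Bool.false_eq_true, if_false, false_and, or_false] at k2 y2
      exact k3 _ (y2.symm.trans (c2.trans k2))
    · simp only [hR, if_true, Bool.not_true, Bool.false_eq_true, false_and, or_false] at k2 z2
      exact k3 _ (z2.symm.trans (c3.trans k2))
  rw [piecewise_eq_of_notMem _ _ _ hb'] at x2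
  have k1 : b ∉ J := fun k => hb' (mem_filter.2 ⟨mem_univ _, c1 ▸ mem_image_of_mem π k⟩)
  have k2 : b' ∉ J' := fun k =>
    hb (mem_union_left _ (mem_filter.2 ⟨mem_univ _, c1 ▸ mem_image_of_mem π' k⟩))
  rw [hw₁, piecewise_eq_of_notMem _ _ _ fun k => k1 (mem_union_left _ k), hL, c2] at y2
  rw [hw₂, piecewise_eq_of_notMem _ _ _ fun k => k1 (mem_union_right _ k), hL, c3] at z2
  rw [hw', piecewise_eq_of_notMem _ _ _ k2] at x2
  refine hsep (ρ (ι b).1) (fun i => r ((ι b).1, i)) (ι' b').2 (ι b).2 (x b') ?_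
    (by rw [hρ]; exact y2) (by rw [hρ]; exact z2)
  rw [e, c1, ← e' b']
  exact x2.imp id fun h => ⟨rfl, h.2⟩

/-- The long code lemma for triples. -/
theorem long3 {ε : ℝ} (hε : 0 < ε) : ∃ t : ℕ, ∀ (B : Type) [Fintype B] [DecidableEq B],
    ∃ T : Finset (B → Fin 2) → Finset B, (∀ I, (T I).card ≤ t) ∧
      ∀ (B' : Type) [Fintype B'] [DecidableEq B'] (π π' : B → B'),
        (∀ y, (univ.filter fun b => π b = y).card ≤ 2) →
        (∀ y, (univ.filter fun b => π' b = y).card ≤ 2) → ∀ I I' : Finset (B → Fin 2),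
          ε * Fintype.card (B → Fin 2) ≤ I.card → ε * Fintype.card (B → Fin 2) ≤ I'.card →
          Set.InjOn π (T I) →
          (∀ y ∈ I, ∀ z ∈ I, ∀ x ∈ I', ∃ b b', π b = π' b' ∧ y b = x b' ∧ z b = x b') →
          ∃ b ∈ T I, ∃ b' ∈ T I', π b = π' b' := by
  obtain ⟨m, t, h⟩ := robust_core (κ := Fin 4) St (Fintype.equivOfCardEq (by simp)) hε
    (K := 32) (by norm_num)
  refine ⟨t + t, fun B _ _ => ?_⟩
  have h1 : ∀ I : Finset (B → Fin 2), ∃ T : Finset B, T.card ≤ t + t ∧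
      (ε * Fintype.card (B → Fin 2) ≤ I.card → ∃ (R : B → Bool) (J₁ J₂ : Finset B)
        (z₁ z₂ : B → St), J₁.card ≤ m ∧ J₂.card ≤ m ∧ J₁ ⊆ T ∧ J₂ ⊆ T ∧
        (∀ M : Finset B, M.card ≤ 6 * m → Disjoint M T →
          3 / 4 ≤ 𝔼 z, ind (∀ a, (∀ b, b ∉ M → a b = J₁.piecewise z₁ z b) → up sec I R a)) ∧
        ∀ M : Finset B, M.card ≤ 6 * m → Disjoint M T →
          3 / 4 ≤ 𝔼 z, ind (∀ a, (∀ b, b ∉ M → a b = J₂.piecewise z₂ z b) →
            up sec I (fun b => !R b) a)) := by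
    intro I
    by_cases hI : ε * Fintype.card (B → Fin 2) ≤ I.card
    swap
    · exact ⟨∅, Nat.zero_le _, fun h => absurd h hI⟩
    obtain ⟨R, hR⟩ := russo (fun R => (dens (up sec I R) - dens (up sec I fun b => !R b) + 1) / 2)
      (fun R => by linarith [dens_nonneg (up sec I R), dens_le_one (up sec I fun b => !R b)])
      fun R => by linarith [dens_le_one (up sec I R), dens_nonneg (up sec I fun b => !R b)]
    have e : ∀ b c, (fun b' => !Function.update R b c b') =
        Function.update (fun b => !R b) b (!c) := fun b c => Function.comp_update not R b c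
    simp only [e, Bool.not_true, Bool.not_false] at hR
    have a1 : ∑ b, (sens (up sec I R) b + sens (up sec I fun b => !R b) b) ≤ 32 := by
      refine le_trans (sum_le_sum fun b _ => ?_) ((mul_sum _ _ (32 : ℝ)).symm.trans_le
        (mul_le_of_le_one_right (by norm_num) hR))
      have b1 := sens_up conn I R b
      have b2 := sens_up conn I (fun b => !R b) b
      simp only [Fintype.card_prod, Fintype.card_fin] at b1 b2
      push_cast at b1 b2
      linarith
    rw [sum_add_distrib] at a1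
    have a2 : ∀ R, ε ≤ dens (up sec I R) := fun R =>
      le_trans ((le_div_iff₀ (by exact_mod_cast Fintype.card_pos)).2 hI) (dens_up sec I R)
    have a3 : ∀ R, 0 ≤ ∑ b, sens (up sec I R) b := fun R => sum_nonneg fun b _ => sens_nonneg _ b
    obtain ⟨J₁, T₁, z₁, b1, b2, b3, b4⟩ := h B _ (a2 R) (by linarith [a3 fun b => !R b])
    obtain ⟨J₂, T₂, z₂, c1, c2, c3, c4⟩ := h B _ (a2 fun b => !R b) (by linarith [a3 R])
    exact ⟨T₁ ∪ T₂, (card_union_le _ _).trans (add_le_add b3 c3), fun _ => ⟨R, J₁, J₂, z₁, z₂, b1,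
      c1, b2.trans subset_union_left, c2.trans subset_union_right,
      fun M a b => b4 M a (b.mono_right subset_union_left),
      fun M a b => c4 M a (b.mono_right subset_union_right)⟩⟩
  choose T hT hT' using h1
  refine ⟨T, hT, fun B' _ _ π π' hπ hπ' I I' hI hI' hi hII => ?_⟩
  obtain ⟨R, J₁, J₂, z₁, z₂, a1, a2, a3, a4, a5, a6⟩ := hT' I hI
  obtain ⟨R', J', -, z', -, b1, -, b2, -, b3, -⟩ := hT' I' hI'
  exact glue hπ hπ' a1 a2 b1 a3 a4 b2 a5 a6 b3 hi hII

end Vale.Agent.N339B
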