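import Vale.Agent.N339.Red
import Vale.Agent.N339B.Defs
import Vale.Agent.N339B.Long3
import Vale.Agent.N342.LG
import Vale.Agent.Lib.PCP.NPBridge

/-!
The games of the statement, and the reduction from smooth games to hypergraphs.
-/

namespace Vale.Agent.N339B

open Finset Vale.Agent.Lib.PCP Vale.Agent.Lib.PolyTime Vale.Agent.P339 Vale.Agent.Lib.NP
open Vale.Agent.N339
open Vale.Agent.N342 (prs mem_prs PT_prs)
open scoped BigOperators

theorem sum_pcode {Ω D : Type} [Fintype Ω] [Fintype D] {n : ℕ} (e : Ω ≃ Fin n) (φ : ℕ → ℝ) :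
    ∑ z ∈ range (n * Fintype.card D), φ z = ∑ x : Ω, ∑ i : D, φ (pcode (e x) i) := by
  rw [← Fin.sum_univ_eq_sum_range, ← Equiv.sum_comp (prodE e D), Fintype.sum_prod_type]
  simp only [prodE_val]

theorem exists_pt {Ω D : Type} [Fintype D] {n z : ℕ} (e : Ω ≃ Fin n)
    (h : z < n * Fintype.card D) : ∃ (x : Ω) (i : D), z = pcode (e x) i := by
  obtain ⟨v, hv, i, rfl⟩ := exists_pcode h
  exact ⟨e.symm ⟨v, hv⟩, i, by simp⟩

theorem exists_ext {Ω X : Type} [Nonempty X] {n : ℕ} (e : Ω ≃ Fin n) (f : Ω → X) :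
    ∃ F : ℕ → X, ∀ x, F (e x) = f x :=
  ⟨Function.extend (fun x => (e x : ℕ)) f fun _ => Classical.arbitrary X, fun x =>
    (Fin.val_injective.comp e.injective).extend_apply _ _ x⟩

/-! ### Games -/

section Game

variable {Ω K : Type} [Fintype K] [Nonempty K] {q : ℕ}

theorem sum_w {C : Type} (N : ℕ) (φ : ℕ → C) (w : C → ℕ) (hw : ∀ z, w (φ z) = 1) (p : C → Prop)
    [DecidablePred p] : ((((((List.range N).map φ).filter fun c => p c).map w).sum : ℕ) : ℝ) =
      ∑ z ∈ range N, ind (p (φ z)) := by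
  induction N with
  | zero => simp
  | succ N ih =>
    rw [List.range_succ, List.map_append, List.filter_append, List.map_append, List.sum_append,
      Nat.cast_add, ih, sum_range_succ]
    by_cases h : p (φ N) <;> simp [h, hw, ind]

/-- The constraint with a given number. -/
noncomputable def con (H : PG K (Fin (2 * q)) (Fin q)) (z : ℕ) :
    ℕ × ℕ × (Fin (2 * q) → Fin q) × ℕ :=
  (z / Fintype.card K, H.t (lo K z) (z / Fintype.card K), H.p (lo K z) (z / Fintype.card K), 1)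

theorem total (H : PG K (Fin (2 * q)) (Fin q)) :
    ((((List.range (H.n * Fintype.card K)).map (con H)).map fun c => c.2.2.2).sum : ℕ) =
      H.n * Fintype.card K := by
  rw [List.map_map, show ((fun c => c.2.2.2) ∘ con H) = fun _ => 1 from rfl]
  simp

/-- The data which is written down. -/
noncomputable def gdata (H : PG K (Fin (2 * q)) (Fin q)) : List (List Raw) :=
  (List.range (H.n * Fintype.card K)).map fun z =>
    [⟨(z / Fintype.card K).bits⟩, ⟨(H.t (lo K z) (z / Fintype.card K)).bits⟩,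
      ⟨enc (List.ofFn fun a => (H.p (lo K z) (z / Fintype.card K) a).val)⟩, ⟨(1 : ℕ).bits⟩]

theorem PT_gdata {F : CNF → PG K (Fin (2 * q)) (Fin q)} (hF : PG.IsPT F) :
    PT ∅ fun φ => gdata (F φ) := by
  have hd : PT ∅ fun z : CNF × ℕ => (z.1, z.2 / Fintype.card K) :=
    PT.fst'.pair (PT.snd'.div (PT.const _))
  refine PT.map (PT.range (hF.n.mul (PT.const _)) (hF.nb.mul (PBd.const _))) ?_
  refine PT.cons (PT.rawBits hd.snd) (PT.cons (PT.rawBits ?_) (PT.cons ?_ (PT.const _)))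
  · exact PT_lo (f := fun (j : K) (z : CNF × ℕ) => (F z.1).t j (z.2 / Fintype.card K))
      fun j => (hF.t j).comp hd
  · exact PT_lo (f := fun (j : K) (z : CNF × ℕ) =>
      Raw.mk (enc (List.ofFn fun a => ((F z.1).p j (z.2 / Fintype.card K) a).val))) fun j =>
      PT.finComp (fun π : Fin (2 * q) → Fin q => Raw.mk (enc (List.ofFn fun a => (π a).val)))
        ((hF.p j).comp hd)

theorem exists_game [Fintype Ω] [Nonempty Ω] (hq : 0 < q) {H : PG K (Fin (2 * q)) (Fin q)}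
    {G : AG Ω K (Fin (2 * q)) (Fin q)} (hr : H.Rep G) (hf : G.FibEq 2) :
    ∃ G' : Game q, G'.code = enc (gdata H) ∧ (G.Sat → 1 ≤ G'.value) ∧
      ∀ s, G.ValLE s → G'.value ≤ s := by
  obtain ⟨e, he⟩ := hr
  have : Nonempty (Fin q) := ⟨⟨0, hq⟩⟩
  have : Nonempty (Fin (2 * q)) := ⟨⟨0, by omega⟩⟩
  have h0 : 0 < H.n * Fintype.card K :=
    Nat.mul_pos (Fin.pos (e (Classical.arbitrary Ω))) Fintype.card_pos
  have hc : ∀ x k, con H (pcode (e x) k) = ((e x : ℕ), (e (G.t k x) : ℕ), G.p k x, 1) :=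
    fun x k => by simp only [con, pcode_div, lo_pcode, (he _ _).1, (he _ _).2]
  let G' : Game q := ⟨(List.range (H.n * Fintype.card K)).map (con H), fun c hc' b => by
    obtain ⟨z, hz, rfl⟩ := List.mem_map.1 hc'
    obtain ⟨x, k, rfl⟩ := exists_pt e (List.mem_range.1 hz)
    rw [hc]
    refine Eq.trans ?_ (hf k x b)
    rw [← Set.ncard_coe_finset]
    congr 1
    ext a
    simp, by rwa [total]⟩
  have hv : ∀ L : (ℕ → Fin (2 * q)) × (ℕ → Fin q),
      ((((G'.cons.filter fun c => c.2.2.1 (L.1 c.1) = L.2 c.2.1).map fun c => c.2.2.2).sum : ℕ) :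
        ℝ) / ((G'.cons.map fun c => c.2.2.2).sum : ℕ) =
      𝔼 x, 𝔼 k, ind (G.p k x (L.1 (e x)) = L.2 (e (G.t k x))) := by
    intro L
    rw [total, sum_w _ (con H) _ (fun _ => rfl) fun c => c.2.2.1 (L.1 c.1) = L.2 c.2.1,
      sum_pcode e]
    simp only [hc, Fintype.expect_eq_sum_div_card, ← sum_div, div_div]
    rw [Fintype.card_congr e, Fintype.card_fin, Nat.cast_mul, mul_comm (H.n : ℝ)]
  refine ⟨G', ?_, fun ⟨f, g, hfg⟩ => ?_, fun s hs => ciSup_le fun L => ?_⟩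
  · rw [Game.code, gdata, ← listW_map_enc, List.map_map, List.map_map]
    congr 2
    funext z
    simp only [Function.comp_apply]
    rw [← listW_map_enc]
    simp only [List.map_cons, List.map_nil, enc_raw]
    rw [← listW_map_enc, List.map_ofFn]
    rfl
  · obtain ⟨f', hf'⟩ := exists_ext e f
    obtain ⟨g', hg'⟩ := exists_ext e g
    refine le_ciSup_of_le ⟨1, ?_⟩ (f', g') (le_of_eq ?_)
    · rintro _ ⟨L, rfl⟩
      exact (hv L).trans_le (expect_le univ_nonempty fun _ _ =>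
        expect_le univ_nonempty fun _ _ => ind_le_one _)
    · rw [hv]
      simp [hf', hg', hfg, ind]
  · exact (hv L).trans_le (hs (fun x => L.1 (e x)) fun x => L.2 (e x))

end Game

theorem nonempty_of_le {K : Type} [Fintype K] {δ : ℝ} (h : 1 ≤ δ * Fintype.card K) :
    Nonempty K := Fintype.card_pos_iff.1 (Nat.pos_of_ne_zero fun e => by
  rw [e] at h
  norm_num at h)

theorem games {δ : ℝ} (hδ : 0 < δ) : ∃ q : ℕ, 2 ≤ q ∧
    SatReduces (Game.code (q := q)) (fun G => 1 ≤ G.value) (fun G => G.value ≤ δ) := by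
  obtain ⟨q₀, h⟩ := hardG_main le_rfl hδ
  obtain ⟨K, _, hK, F, hF, h⟩ := h (q₀ + 2) (by omega)
  have := nonempty_of_le hK
  have h0 : Hard SAT3 := Red.refl _
  refine ⟨q₀ + 2, by omega, h0.satReduces _ _ _ _ (PT_gdata hF) (fun φ hφ => ?_) fun φ hφ => ?_⟩ <;>
    obtain ⟨Ω, _, _, G, h1, -, ⟨h2, -⟩, h3, h4⟩ := h φ <;>
    obtain ⟨G', a1, a2, a3⟩ := exists_game (by omega) h1 h2
  exacts [⟨G', a1, a2 (h3 hφ)⟩, ⟨G', a1, a3 _ (h4 hφ)⟩]

/-! ### Decoding -/

theorem good_le {Ω K A B : Type} [Fintype Ω] [Nonempty Ω] [Fintype K] [Nonempty K] [Nonempty A]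
    [Nonempty B] {G : AG Ω K A B} {δ : ℝ} (hδ : 0 ≤ δ) (hs : G.Smooth δ) (hv : G.ValLE δ) {t : ℕ}
    (L : Ω → Finset A) (hL : ∀ x, (L x).card ≤ t) (good : Ω → Prop)
    (h : ∀ x k x' k', good x → good x' → Set.InjOn (G.p k x) (L x) → G.t k x = G.t k' x' →
      ∃ a ∈ L x, ∃ a' ∈ L x', G.p k x a = G.p k' x' a') :
    𝔼 x, ind (good x) ≤ 2 * (t ^ 2 * δ) := by
  classical
  have h1 : ∀ x, ∃ f : Fin t → A, ∀ a ∈ L x, ∃ j, f j = a := fun x => by
    refine ⟨fun j => (L x).toList.getD j (Classical.arbitrary A), fun a ha => ?_⟩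
    obtain ⟨i, hi, e⟩ := List.mem_iff_getElem.1 (mem_toList.2 ha)
    refine ⟨⟨i, lt_of_lt_of_le hi (by rw [length_toList]; exact hL x)⟩, ?_⟩
    simp only
    rw [List.getD_eq_getElem _ _ hi, e]
  choose en hen using h1
  have h2 : ∀ v, ∃ g : Fin t → B, ∀ x k, good x → Set.InjOn (G.p k x) (L x) → G.t k x = v →
      ∃ i j, G.p k x (en x i) = g j := fun v => by
    by_cases h3 : ∃ x' k', good x' ∧ G.t k' x' = v
    · obtain ⟨x', k', a1, rfl⟩ := h3
      refine ⟨fun j => G.p k' x' (en x' j), fun x k b1 b2 b3 => ?_⟩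
      obtain ⟨a, c1, a', c2, c3⟩ := h x k x' k' b1 a1 b2 b3
      obtain ⟨i, rfl⟩ := hen x a c1
      obtain ⟨j, rfl⟩ := hen x' a' c2
      exact ⟨i, j, c3⟩
    · exact ⟨fun _ => Classical.arbitrary B, fun x k b1 _ b3 => absurd ⟨x, k, b1, b3⟩ h3⟩
  choose g hg using h2
  have h3 : ∀ x k, ind (good x) ≤ ∑ p : Fin t × Fin t,
      (ind (G.p k x (en x p.1) = g (G.t k x) p.2) +
        ind (en x p.1 ≠ en x p.2 ∧ G.p k x (en x p.1) = G.p k x (en x p.2))) := by
    intro x k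
    have b0 : ∀ p ∈ (univ : Finset (Fin t × Fin t)), 0 ≤
        ind (G.p k x (en x p.1) = g (G.t k x) p.2) +
        ind (en x p.1 ≠ en x p.2 ∧ G.p k x (en x p.1) = G.p k x (en x p.2)) :=
      fun _ _ => add_nonneg (ind_nonneg _) (ind_nonneg _)
    by_cases b1 : good x
    swap
    · rw [ind_of_not b1]
      exact sum_nonneg b0
    rw [ind_of b1]
    by_cases b2 : Set.InjOn (G.p k x) (L x)
    · obtain ⟨i, j, b3⟩ := hg _ x k b1 b2 rfl
      refine le_trans ?_ (single_le_sum b0 (mem_univ (i, j)))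
      rw [ind_of b3]
      exact le_add_of_nonneg_right (ind_nonneg _)
    · simp only [Set.InjOn, not_forall] at b2
      obtain ⟨a, c1, a', c2, c3, c4⟩ := b2
      obtain ⟨i, rfl⟩ := hen x a c1
      obtain ⟨j, rfl⟩ := hen x a' c2
      refine le_trans ?_ (single_le_sum b0 (mem_univ (i, j)))
      rw [ind_of (And.intro c4 c3)]
      exact le_add_of_nonneg_left (ind_nonneg _)
  refine le_trans (expect_le_expect fun x _ => (le_of_eq (Fintype.expect_const _).symm).trans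
    (expect_le_expect fun k (_ : k ∈ univ) => h3 x k)) ?_
  simp only [expect_sum_comm, expect_add_distrib]
  refine (sum_le_card_nsmul _ _ (δ + δ) fun p _ => add_le_add
    (hv (fun x => en x p.1) fun v => g v p.2) (expect_le univ_nonempty fun x _ => ?_)).trans
    (le_of_eq (by simp; ring))
  by_cases b : en x p.1 = en x p.2
  · simpa [b, ind] using hδ
  · simpa only [b, ne_eq, not_false_eq_true, true_and] using hs x _ _ b

/-! ### Hypergraphs -/

section Hyp

variable {Ω K A B : Type} [Fintype K] [Fintype A] [DecidableEq A] (m : ℕ)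

/-- Words with copies. -/
abbrev Wd (A : Type) (m : ℕ) : Type := (A → Fin 2) × Fin (m + 1)

open Classical in
/-- Three words are nowhere equal. -/
noncomputable def cmp (π π' : A → B) (y z x : Wd A m) : Bool :=
  decide (∀ b b', π b = π' b' → ¬ (y.1 b = x.1 b' ∧ z.1 b = x.1 b'))

/-- The vertex of the game. -/
noncomputable def vx (A : Type) [Fintype A] [DecidableEq A] (m z : ℕ) : ℕ :=
  z / Fintype.card (Wd A m)

/-- The test for edges. -/
noncomputable def tri (H : PG K A B) (e : ℕ × ℕ × ℕ) : Bool :=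
  (!decide (e.1 = e.2.1) && (!decide (e.1 = e.2.2) && !decide (e.2.1 = e.2.2))) &&
    (decide (vx A m e.1 = vx A m e.2.1) && (univ : Finset (K × K)).toList.any fun k =>
      decide (H.t k.1 (vx A m e.1) = H.t k.2 (vx A m e.2.2)) &&
        cmp m (H.p k.1 (vx A m e.1)) (H.p k.2 (vx A m e.2.2)) (lo _ e.1) (lo _ e.2.1) (lo _ e.2.2))

/-- The list of edges. -/
noncomputable def edges (H : PG K A B) : List (ℕ × ℕ × ℕ) :=
  (prs (List.range (H.n * Fintype.card (Wd A m))) (prs (List.range (H.n * Fintype.card (Wd A m)))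
    (List.range (H.n * Fintype.card (Wd A m))))).filter (tri m H)

theorem mem_edges {H : PG K A B} {e : ℕ × ℕ × ℕ} : e ∈ edges m H ↔
    (e.1 < H.n * Fintype.card (Wd A m) ∧ e.2.1 < H.n * Fintype.card (Wd A m) ∧
      e.2.2 < H.n * Fintype.card (Wd A m)) ∧ (e.1 ≠ e.2.1 ∧ e.1 ≠ e.2.2 ∧ e.2.1 ≠ e.2.2) ∧
      vx A m e.1 = vx A m e.2.1 ∧ ∃ k k', H.t k (vx A m e.1) = H.t k' (vx A m e.2.2) ∧
        ∀ b b', H.p k (vx A m e.1) b = H.p k' (vx A m e.2.2) b' →
          ¬ ((lo (Wd A m) e.1).1 b = (lo (Wd A m) e.2.2).1 b' ∧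
            (lo (Wd A m) e.2.1).1 b = (lo (Wd A m) e.2.2).1 b') := by
  simp only [edges, tri, cmp, List.mem_filter, mem_prs, List.mem_range, Bool.and_eq_true,
    Bool.not_eq_true', decide_eq_false_iff_not, decide_eq_true_eq, List.any_eq_true, mem_toList,
    mem_univ, true_and, Prod.exists]

/-- The hypergraph of a game. -/
noncomputable def hyp (H : PG K A B) : Hyp :=
  ⟨H.n * Fintype.card (Wd A m), edges m H, fun _ he =>
    let ⟨a, b, _⟩ := (mem_edges m).1 he
    ⟨a.1, a.2.1, a.2.2, b⟩⟩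

/-- The data which is written down. -/
noncomputable def hdata (H : PG K A B) : Un × List (List ℕ) :=
  (⟨H.n * Fintype.card (Wd A m)⟩, (edges m H).map fun e => [e.1, e.2.1, e.2.2])

theorem code_hyp (H : PG K A B) : (hyp m H).code = enc (hdata m H) := by
  rw [hdata, enc_pair, enc_un, ← listW_map_enc, Hyp.code, pairW_eq_pr, List.map_map]
  congr 3
  funext e
  exact listW_map_enc [e.1, e.2.1, e.2.2]

theorem PT_hdata [Enc B] [EncInj B] [Finite B] {F : CNF → PG K A B} (hF : PG.IsPT F) :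
    PT ∅ fun φ => hdata m (F φ) := by
  have hn := hF.n.mul (PT.const (Fintype.card (Wd A m)))
  have hb := hF.nb.mul (PBd.const (Fintype.card (Wd A m)))
  have hr := PT.range hn hb
  have l0 : PT ∅ fun z : CNF × ℕ => lo (Wd A m) z.2 :=
    PT_lo (f := fun (j : Wd A m) (_ : CNF × ℕ) => j) fun j => PT.const j
  have e1 : PT ∅ fun z : CNF × ℕ × ℕ × ℕ => z.2.1 := PT.snd'.fst
  have e2 : PT ∅ fun z : CNF × ℕ × ℕ × ℕ => z.2.2.1 := PT.snd'.snd.fst
  have e3 : PT ∅ fun z : CNF × ℕ × ℕ × ℕ => z.2.2.2 := PT.snd'.snd.snd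
  have v : ∀ {f : CNF × ℕ × ℕ × ℕ → ℕ}, PT ∅ f → PT ∅ fun z => vx A m (f z) :=
    fun h => h.div (PT.const _)
  have l : ∀ {f : CNF × ℕ × ℕ × ℕ → ℕ}, PT ∅ f → PT ∅ fun z => lo (Wd A m) (f z) :=
    fun h => l0.comp (PT.fst'.pair h)
  have h1 : ∀ k : K × K, PT ∅ fun z : CNF × ℕ × ℕ × ℕ =>
      decide ((F z.1).t k.1 (vx A m z.2.1) = (F z.1).t k.2 (vx A m z.2.2.2)) &&
        cmp m ((F z.1).p k.1 (vx A m z.2.1)) ((F z.1).p k.2 (vx A m z.2.2.2)) (lo _ z.2.1)
          (lo _ z.2.2.1) (lo _ z.2.2.2) := fun k =>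
    (PT.eqNat ((hF.t k.1).comp (PT.fst'.pair (v e1))) ((hF.t k.2).comp (PT.fst'.pair (v e3)))).and
      (PT.finComp (fun w : ((A → B) × (A → B)) × Wd A m × Wd A m × Wd A m =>
        cmp m w.1.1 w.1.2 w.2.1 w.2.2.1 w.2.2.2)
        ((((hF.p k.1).comp (PT.fst'.pair (v e1))).pair
          ((hF.p k.2).comp (PT.fst'.pair (v e3)))).pair ((l e1).pair ((l e2).pair (l e3)))))
  have h2 := PT.any (f := fun _ b => b) (PT.mapConst (univ : Finset (K × K)).toList fun k _ => h1 k)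
    PT.snd'
  have h3 : PT ∅ fun z : CNF × ℕ × ℕ × ℕ => tri m (F z.1) z.2 :=
    (((PT.eqNat e1 e2).not.and ((PT.eqNat e1 e3).not.and (PT.eqNat e2 e3).not)).and
      ((PT.eqNat (v e1) (v e2)).and h2)).congr fun z => by rw [tri, List.any_map]; rfl
  exact (PT.mkUn hn hb).pair (PT.map (f := fun _ (e : ℕ × ℕ × ℕ) => [e.1, e.2.1, e.2.2])
    (PT.filter (f := fun φ e => tri m (F φ) e) (PT_prs hr (PT_prs hr hr)) h3)
    (e1.cons (e2.cons (e3.cons PT.nil))))

variable {H : PG K A B} {G : AG Ω K A B}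

theorem hyp_twoCol [Nonempty A] (hr : H.Rep G) (h : G.Sat) : (hyp m H).TwoCol := by
  obtain ⟨e, he⟩ := hr
  obtain ⟨f, g, hfg⟩ := h
  obtain ⟨F, hF⟩ := exists_ext e f
  refine ⟨fun z => decide ((lo (Wd A m) z).1 (F (vx A m z)) = 0), fun c hc => ?_⟩
  obtain ⟨⟨a1, -, a2⟩, -, a3, k, k', a4, a5⟩ := (mem_edges m).1 hc
  obtain ⟨x, i, b1⟩ := exists_pt e a1
  obtain ⟨x', i', b2⟩ := exists_pt e a2
  have c1 : vx A m c.1 = e x := by rw [b1, vx, pcode_div]
  have c2 : vx A m c.2.2 = e x' := by rw [b2, vx, pcode_div]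
  rw [c1, c2, (he _ _).1, (he _ _).1] at a4
  have a6 := a5 (f x) (f x') (by
    rw [c1, c2, (he _ _).2, (he _ _).2, hfg, hfg, e.injective (Fin.ext a4)])
  simp only [← a3, c1, c2, hF]
  revert a6
  generalize (lo (Wd A m) c.1).1 (f x) = u, (lo (Wd A m) c.2.1).1 (f x) = v,
    (lo (Wd A m) c.2.2).1 (f x') = w
  revert u v w
  decide

theorem hyp_dense [Fintype Ω] [Nonempty Ω] [Nonempty K] [Nonempty A] [Nonempty B] (hr : H.Rep G)
    {ε δ : ℝ} (hε : 0 < ε) (hδ : 0 ≤ δ) (hs : G.Smooth δ) (hv : G.ValLE δ) {t : ℕ}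
    (hm : 2 ≤ ε / 4 * (m + 1)) (ht : 2 * (t ^ 2 * δ) ≤ ε / 2)
    (T : Finset (A → Fin 2) → Finset A) (hT : ∀ I, (T I).card ≤ t)
    (hT' : ∀ k x k' x' (I I' : Finset (A → Fin 2)),
      ε / 4 * Fintype.card (A → Fin 2) ≤ I.card → ε / 4 * Fintype.card (A → Fin 2) ≤ I'.card →
      Set.InjOn (G.p k x) (T I) → (∀ y ∈ I, ∀ z ∈ I, ∀ w ∈ I', ∃ b b',
        G.p k x b = G.p k' x' b' ∧ y b = w b' ∧ z b = w b') →
      ∃ b ∈ T I, ∃ b' ∈ T I', G.p k x b = G.p k' x' b') : (hyp m H).Dense ε := by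
  classical
  obtain ⟨e, he⟩ := hr
  intro S hS hcard
  by_contra hcon
  set Y : ℝ := (Fintype.card (A → Fin 2) : ℝ) with hY
  have hY0 : 0 < Y := by rw [hY]; exact_mod_cast Fintype.card_pos
  let C : Ω → (A → Fin 2) → Finset (Fin (m + 1)) := fun x f =>
    univ.filter fun i => pcode (e x) ((f, i) : Wd A m) ∈ S
  let I : Ω → Finset (A → Fin 2) := fun x => univ.filter fun f => 2 < (C x f).card
  have h1 := good_le hδ hs hv (fun x => T (I x)) (fun _ => hT _)
    (fun x => ε / 4 * Y ≤ (I x).card) fun x k x' k' g1 g2 g3 g4 =>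
      hT' k x k' x' _ _ g1 g2 g3 fun y hy z hz w hw => by
        by_contra hne
        obtain ⟨i, hi⟩ := card_pos.1 (lt_of_le_of_lt (Nat.zero_le _) (mem_filter.1 hy).2)
        obtain ⟨j, hj, hj'⟩ := exists_mem_notMem_of_card_lt_card (s := {i}) (t := C x z)
          (lt_of_le_of_lt (by simp) (mem_filter.1 hz).2)
        obtain ⟨l, hl, hl'⟩ := exists_mem_notMem_of_card_lt_card (s := {i, j}) (t := C x' w)
          (lt_of_le_of_lt card_le_two (mem_filter.1 hw).2)
        simp only [mem_insert, mem_singleton, not_or] at hj' hl'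
        refine hcon ⟨(pcode (e x) ((y, i) : Wd A m), pcode (e x) ((z, j) : Wd A m),
          pcode (e x') ((w, l) : Wd A m)), (mem_edges m).2 ⟨⟨pcode_lt (e x).2 _, pcode_lt (e x).2 _,
          pcode_lt (e x').2 _⟩, ⟨fun h => hj' (congrArg Prod.snd (pcode_inj h).2).symm,
          fun h => hl'.1 (congrArg Prod.snd (pcode_inj h).2).symm,
          fun h => hl'.2 (congrArg Prod.snd (pcode_inj h).2).symm⟩, ?_, k, k', ?_, ?_⟩,
          (mem_filter.1 hi).2, (mem_filter.1 hj).2, (mem_filter.1 hl).2⟩ <;>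
          simp only [vx, pcode_div, lo_pcode, (he _ _).1, (he _ _).2, g4]
        exact fun b b' c1 c2 => hne ⟨b, b', c1, c2⟩
  have h2 : (S.card : ℝ) = ∑ x, ∑ f, ((C x f).card : ℝ) := by
    have a1 : (S.card : ℝ) = ∑ z ∈ range (H.n * Fintype.card (Wd A m)), ind (z ∈ S) := by
      simp only [ind_eq_ite, sum_boole]
      rw [filter_mem_eq_inter,
        inter_eq_right.2 (show S ⊆ range (H.n * Fintype.card (Wd A m)) from hS)]
    rw [a1, sum_pcode e]
    simp only [Fintype.sum_prod_type]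
    simp only [ind_eq_ite, sum_boole, C]
  have h3 : ∀ x, ∑ f, ((C x f).card : ℝ) ≤
      (ind (ε / 4 * Y ≤ (I x).card) + ε / 2) * (Y * (m + 1)) := by
    intro x
    have a1 : ∑ f, ((C x f).card : ℝ) ≤ (I x).card * (m + 1) + Y * 2 := by
      calc _ ≤ ∑ f, ((if 2 < (C x f).card then (1 : ℝ) else 0) * (m + 1) + 2) :=
            sum_le_sum fun f _ => by
              split_ifs with b
              · have : ((C x f).card : ℝ) ≤ (m + 1 : ℕ) := by
                  exact_mod_cast (card_le_univ _).trans (by simp)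
                push_cast at this
                linarith
              · simpa using (show ((C x f).card : ℝ) ≤ 2 by exact_mod_cast not_lt.1 b)
        _ = _ := by rw [sum_add_distrib, ← sum_mul, sum_boole, sum_const, nsmul_eq_mul]; rfl
    have a2 : ((I x).card : ℝ) ≤ (ind (ε / 4 * Y ≤ (I x).card) + ε / 4) * Y := by
      by_cases b : ε / 4 * Y ≤ (I x).card
      · have : ((I x).card : ℝ) ≤ Y := by rw [hY]; exact_mod_cast card_le_univ _
        rw [ind_of b]
        nlinarith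
      · rw [ind_of_not b, zero_add]
        exact (not_le.1 b).le
    have a3 := mul_le_mul_of_nonneg_right a2 (show (0 : ℝ) ≤ m + 1 by positivity)
    nlinarith
  have h4 : ((hyp m H).n : ℝ) = Fintype.card Ω * (Y * (m + 1)) := by
    rw [Fintype.card_congr e, Fintype.card_fin, hY]
    simp [hyp]
  have h5 : (0 : ℝ) < Fintype.card Ω := by exact_mod_cast Fintype.card_pos
  rw [Fintype.expect_eq_sum_div_card, div_le_iff₀ h5] at h1
  have h6 := hcard.trans_le (h2.trans_le (sum_le_sum fun x _ => h3 x))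
  rw [h4, ← sum_mul, sum_add_distrib, sum_const, card_univ, nsmul_eq_mul, ← mul_assoc] at h6
  have h7 := lt_of_mul_lt_mul_right h6 (by positivity)
  nlinarith

end Hyp

theorem hyper {ε : ℝ} (hε : 0 < ε) :
    NPHard Hyp.code (fun H => H.TwoCol) fun H => 0 < H.n ∧ H.Dense ε := by
  obtain ⟨t, ht⟩ := long3 (show 0 < ε / 4 by positivity)
  have hδ : 0 < ε / (4 * (t + 1) ^ 2) := by positivity
  obtain ⟨q₀, h⟩ := hardG_main le_rfl hδ
  obtain ⟨K, _, hK, F, hF, h⟩ := h (q₀ + 1) (by omega)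
  have := nonempty_of_le hK
  have : Nonempty (Fin (2 * (q₀ + 1))) := ⟨⟨0, by omega⟩⟩
  obtain ⟨m, hm⟩ := exists_nat_ge (8 / ε)
  obtain ⟨T, hT, hT'⟩ := ht (Fin (2 * (q₀ + 1)))
  have h0 : Hard SAT3 := Red.refl _
  refine h0.npHard _ _ _ _ (PT_hdata m hF) (fun φ hφ => ?_) fun φ hφ => ?_ <;>
    obtain ⟨Ω, _, _, G, h1, -, ⟨h2, h5, -⟩, h3, h4⟩ := h φ
  · exact ⟨_, code_hyp m _, hyp_twoCol m h1 (h3 hφ)⟩
  · refine ⟨_, code_hyp m _, Nat.mul_pos (Fin.pos (h1.choose (Classical.arbitrary Ω)))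
      Fintype.card_pos, hyp_dense m h1 hε hδ.le h5 (h4 hφ) ?_ ?_ T hT fun k x k' x' =>
        hT' _ _ _ (fun y => (h2 k x y).le) fun y => (h2 k' x' y).le⟩
    · rw [div_le_iff₀ hε] at hm
      nlinarith
    · rw [← mul_div_assoc, ← mul_div_assoc, div_le_div_iff₀ (by positivity) (by positivity)]
      have : (0 : ℝ) ≤ t := Nat.cast_nonneg t
      nlinarith [mul_nonneg this hε.le]

end Vale.Agent.N339B
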